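import Vale.Agent.P144P.PlaneC
import Vale.Agent.P144W.Plane
import Vale.Agent.P144W.Sob
import Vale.Agent.P144W.Law13
import Vale.Agent.P144V.Main
import Vale.Agent.P144H.Main

namespace Vale.Agent.Results.P144.AAAAAField

open Filter Topology Vale.Agent.P144 Vale.Agent.P144Z Vale.Agent.P144F58

theorem result : ∀ J > 0, ∃ C : Pts → ℝ,
    (∀ μ₀, IsPlaneState J 0 (fun _ => 0) (Kc / J) μ₀ →
      ∀ p, Good Set.univ p → p.m = 0 → Lim (famOf μ₀) p (C p)) ∧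
    ∀ V, IsPotential V → ∃ lam₀ > 0,
      ∃ β Z : ℝ → ℝ, AnalyticOnNhd ℝ β (Set.Ioo (-lam₀) lam₀) ∧
      AnalyticOnNhd ℝ Z (Set.Ioo (-lam₀) lam₀) ∧ β 0 = Kc / J ∧ Z 0 = 1 ∧
      ∀ lam : ℝ, |lam| < lam₀ → 0 < β lam ∧ 0 < Z lam ∧
        ∃ μ, IsPlaneState J lam V (β lam) μ ∧ IsTorusState J lam V (β lam) μ ∧
          Mom μ (Z lam) C ∧ Law μ (Z lam) C ∧ LawS μ ∧ P144V.LawD μ (Z lam) C ∧
          P144H.LawH μ (Z lam) C := by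
  intro J hJ
  obtain ⟨C, hC⟩ := P144P.plane_C hJ
  obtain ⟨μ₀, hμ₀, -⟩ := H436.free_plane hJ
  have hE := P144W.fam_self hμ₀
  have h0 := P144W.spin_mom0 hJ (fun p hp => (hC p hp).1) fun p hp => (hC p hp).2.2.1
  refine ⟨C, fun μ hμ p hp _ => (hC p hp).1 _ (P144W.fam_self hμ), fun V hV => ?_⟩
  obtain ⟨lam₀, l0, β, Zσ, Zε, a1, a2, -, a4, a5, -, h⟩ := AN.planeA J hJ V hV
  refine ⟨lam₀, l0, β, Zσ, a1, a2, a4, a5, fun lam hl => ?_⟩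
  obtain ⟨h1, h2, -, μ, m1, m2, m3⟩ := h lam hl
  have hM : Mom μ (Zσ lam) C := P144W.spin_mom hJ hV m2 hE (m3 _ hE).1 h2
    (fun p hp => (m3 _ hE).2 p hp _ ((hC p hp).1 _ hE)) fun p hp => (hC p hp).2.2.1
  have := m1.1
  have hL := P144W.C13.law hJ h0 hM
  have hF := P144W.sepm hJ m2 hE (m3 _ hE).1
  exact ⟨h1, h2, μ, m1, m2, hM, hL, P144W.lawS hF hL, P144V.lawD hL, P144H.lawH hF hL⟩

end Vale.Agent.Results.P144.AAAAAField
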