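import Vale.Agent.P144N.Main
import Vale.Agent.P144N.Ae
import Vale.Agent.P144N.OutAe
import Vale.Agent.P144O.Ctr
import Vale.Agent.P144D.Dom.Convex
import Vale.Agent.P144E.Ge5.B

namespace Vale.Agent.Results.P144.AAAAAStar

open Filter Topology Set MeasureTheory Vale.Agent.P144 Vale.Agent.P144Z Vale.Agent.P144N

theorem result : ∀ J > 0, ∀ V, IsPotential V → ∃ lam₀ > 0, ∃ β Z : ℝ → ℝ,
    AnalyticOnNhd ℝ β (Ioo (-lam₀) lam₀) ∧ AnalyticOnNhd ℝ Z (Ioo (-lam₀) lam₀) ∧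
    β 0 = Kc / J ∧ Z 0 = 1 ∧ ∀ lam : ℝ, |lam| < lam₀ → 0 < β lam ∧ 0 < Z lam ∧
      ((∀ A, 0 ≤ (open Classical in if IsEdge A then J else 0) + lam * V A) →
        (∀ b, StdBC b → ∀ p : Pts, p.m = 0 →
        (∀ D, IsConnected D → IsLip 1 D ∨ IsLip 2 D ∧ b = none → Good D p → ∃ c,
          Lim (crit J D b) p c ∧ Lim (inDom J lam V (β lam) D b) p (Z lam ^ p.n * c)) ∧
        (∀ D₁ D D₂, Inside D₁ D → Inside D D₂ → Good (interior D₁) p → ∀ ε > 0,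
          ∀ᶠ a in 𝓝[>] (0 : ℝ), corr a (inDom J lam V (β lam) D b a) p ∈
            Icc (Z lam ^ p.n * min (corr a (crit J D₁ b a) p) (corr a (crit J D₂ b a) p) - ε)
              (Z lam ^ p.n * max (corr a (crit J D₁ b a) p) (corr a (crit J D₂ b a) p) + ε)) ∧
        ∀ (u v : ℝ) (D : ℝ → Set ℂ), (∀ s ∈ Ioo u v, ∀ t ∈ Ioo u v, s < t → Inside (D s) (D t)) →
          (∀ t ∈ Ioo u v, Good (interior (D t)) p) →
          {t ∈ Ioo u v | ∃ c, Lim (crit J (D t) b) p c ∧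
            ¬ Lim (inDom J lam V (β lam) (D t) b) p (Z lam ^ p.n * c)}.Countable) ∧
        (∀ b D (C : Pts → ℝ), StdBC b → P144N.Star D →
          (∀ q, Good D q → q.m = 0 → Lim (crit J D b) q (C q)) →
          (∀ p, Good D p → p.m = 0 → ContinuousAt (fun t => C (dil p t)) 1 →
            Lim (inDom J lam V (β lam) D b) p (Z lam ^ p.n * C p)) ∧
          ∀ n, ∀ᵐ x : Fin n → ℂ, Good D ⟨n, 0, x, ![], ![]⟩ → Lim (inDom J lam V (β lam) D b)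
            ⟨n, 0, x, ![], ![]⟩ (Z lam ^ n * C ⟨n, 0, x, ![], ![]⟩)) ∧
        (∀ b z₀ D n (x : Fin n → ℂ) c, StdBC b → P144O.StarAt z₀ D → Good D ⟨n, 0, x, ![], ![]⟩ →
          Tendsto (fun q : ℝ × (Fin n → ℂ) => corr q.1 (crit J D b q.1) ⟨n, 0, q.2, ![], ![]⟩)
            (𝓝[>] 0 ×ˢ 𝓝 x) (𝓝 c) →
          Lim (inDom J lam V (β lam) D b) ⟨n, 0, x, ![], ![]⟩ (Z lam ^ n * c)) ∧
        ∀ (D : TopologicalSpace.Opens ℂ) (C : Pts → ℝ), P144N.Star D ∨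
            IsConnected (D : Set ℂ) ∧ IsLip 2 D ∨ IsC1 D ∨ IsPC1 D ∨
            Bornology.IsBounded (D : Set ℂ) ∧ Convex ℝ (D : Set ℂ) →
          (∀ q, Good D q → q.m = 0 → Lim (crit J D none) q (C q)) →
          P144M13.FieldLim D (inDom J lam V (β lam) D none) (Z lam) C) := by
  intro J hJ V hV
  obtain ⟨κ, hκ, h⟩ := AN.domA
  obtain ⟨lam₀, h0, β, Zσ, Zε, a1, a2, -, a4, a5, -, h⟩ := h J hJ V hV
  refine ⟨lam₀, h0, β, Zσ, a1, a2, a4, a5, fun lam hl => ?_⟩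
  obtain ⟨h1, h2, -, ⟨μ, -, m2, m3⟩, h7⟩ := h lam hl
  refine ⟨h1, h2, fun hf => ?_⟩
  have tm : ∀ α > 0, ∀ Q b, StdBC b → TameW α Q →
      LocDiff Q (crit J Q b) (inDom J lam V (β lam) Q b) (Zσ lam) (Zε lam) ∧
      Identity Q (crit J Q b) (inDom J lam V (β lam) Q b) (Zσ lam) (Zε lam) :=
    fun α hα Q b hb hQ => by
      obtain ⟨α, hα, hQ⟩ := tameK_of (b := none) hα hQ (Or.inl rfl)
      exact h7 α hα Q b (hQ _ (hκ α hα)).1 (hb.signK _ _ Q)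
  have d : ∀ b, StdBC b → Dat J lam (β lam) (Zσ lam) (Zε lam) V b := fun b hb =>
    ⟨hJ, hV, h1, h2, hf, hb, fun Q hQ =>
      diff_of (tm 1 one_pos Q b hb (TameW.of_tame ((tame_of_C1 hQ).mono one_le_two))).1⟩
  refine ⟨fun b hb p hm => ⟨fun D hc hD hp => (d b hb).nice ⟨hc, hD.imp
    (fun h => ⟨Or.inr (Or.inr (Or.inl h)), hb⟩) fun h => ⟨Or.inl h.1, h.2⟩⟩ hp hm,
    fun D₁ D D₂ i1 i2 hp ε hε => (d b hb).between hm i1 i2 hp hε,
    fun u v D hD hp => (d b hb).family hm hD hp⟩, fun b D C hb hD hC =>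
    ⟨fun p hp hm => ((d b hb).star hD hC hp hm).1, (d b hb).star_ae hD hC⟩,
    fun b z₀ D n x c hb hD hp hc => P144O.star_at (d b hb) hD hp hc, fun D C hD hC => ?_⟩
  have bd : Bornology.IsBounded (D : Set ℂ) := by
    rcases hD with h | h | h | h | h
    exacts [h.2.1, h.2.2.1, h.1, h.2.1, h.1]
  refine field_ae hJ hV hf h1.le m2 h2 m3 D.isOpen bd h2 fun n => ?_
  have k : ∀ α > 0, TameW α D → ∀ᵐ x : Fin n → ℂ, Good D ⟨n, 0, x, ![], ![]⟩ →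
      Lim (inDom J lam V (β lam) D none) ⟨n, 0, x, ![], ![]⟩
        (Zσ lam ^ n * C ⟨n, 0, x, ![], ![]⟩) := fun α hα h => .of_forall fun x hp => by
    simpa only [pow_zero, mul_one] using (tm α hα D none (Or.inl rfl) h).2 _ hp _ (hC _ hp rfl)
  rcases hD with h | h | h | h | h
  · exact (d none (Or.inl rfl)).star_ae h hC n
  · refine .of_forall fun x hp => ?_
    obtain ⟨c, c1, c2⟩ := (d none (Or.inl rfl)).nice ⟨h.1, Or.inr ⟨Or.inl h.2, rfl⟩⟩ hp rfl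
    rw [tendsto_nhds_unique (hC _ hp rfl) c1]
    exact c2
  · exact k 1 one_pos (TameW.of_tame ((tame_of_C1 h).mono one_le_two))
  · obtain ⟨α, hα, h⟩ := tameW_of_PC1 h
    exact k α hα h
  · obtain ⟨α, hα, h⟩ := tame_of_convex D.isOpen h.1 h.2
    exact k α hα (TameW.of_tame h)

end Vale.Agent.Results.P144.AAAAAStar
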